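import Vale.Agent.Lib.P318.helper51.Small
import Vale.Agent.Lib.P318.helper51.Gap

namespace Vale.Agent.Results.P318.S51_ExactnessThreshold

open Vale.Agent.Lib.P318

/-- The Goemans-Linial relaxation of Uniform Sparsest Cut is exact on `2 ≤ n ≤ 4` vertices,
and for every `n ≥ 5` there are capacities on `n` vertices with `Φ = 2` and
`1 ≤ GL ≤ (26 n - 54) / (13 n - 25) < 2`. -/
theorem result :
    (∀ n : ℕ, 2 ≤ n → n ≤ 4 → ∀ c : Fin n → Fin n → ℝ, IsCap c →
      glValue c = sparsestCut c) ∧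
    (∀ n : ℕ, 5 ≤ n → ∃ c : Fin n → Fin n → ℝ, IsCap c ∧ sparsestCut c = 2 ∧
      1 ≤ glValue c ∧ glValue c ≤ (26 * (n : ℝ) - 54) / (13 * (n : ℝ) - 25)) :=
  ⟨fun n h2 h4 c hc => glValue_eq_sparsestCut_small n h2 h4 c hc,
    fun n hn => exists_gap n hn⟩

end Vale.Agent.Results.P318.S51_ExactnessThreshold
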